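import Vale.Agent.Lib.P047E.Data

namespace Vale.Agent.Lib.P047E

theorem chk_list : tree0.toList = buckets.flatMap Prod.snd := by decide +kernel

theorem chk_tops : (buckets.map Prod.fst).Nodup := by decide +kernel

theorem chk_top : (buckets.all fun b => b.2.all fun k => Nat.beq (l4 k) b.1) = true := by
  decide +kernel

theorem chk_base : tree0.has key0 = true ∧ tree0.has key1 = true := by decide +kernel

theorem chk_weight : (tree0.toList.all weightOK) = true := by decide +kernel

theorem chk_bound : (tree0.toList.all boundOK) = true := by decide +kernel

theorem chk_bound4 : (tree0.toList.all fun k => Nat.ble 432 (l4 k)) = true := by decide +kernel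

theorem chk_slots : ((List.range 10009).all fun i => tree0.has (slot i)) = true := by
  decide +kernel

theorem all_parts (L : List (Nat × List Nat)) (a m : Nat)
    (h1 : ((L.drop a).take m).all bucketOK = true) (h2 : (L.drop (a + m)).all bucketOK = true) :
    (L.drop a).all bucketOK = true := by
  rw [← List.take_append_drop m (L.drop a), List.all_append, h1, List.drop_drop, h2]
  rfl

theorem chk_part0 : ((buckets.drop 0).take 24).all bucketOK = true := by
  decide +kernel

theorem chk_part1 : ((buckets.drop 24).take 3).all bucketOK = true := by
  decide +kernel

theorem chk_part2 : ((buckets.drop 27).take 2).all bucketOK = true := by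
  decide +kernel

theorem chk_part3 : ((buckets.drop 29).take 1).all bucketOK = true := by
  decide +kernel

theorem chk_part4 : ((buckets.drop 30).take 1).all bucketOK = true := by
  decide +kernel

theorem chk_part5 : ((buckets.drop 31).take 1).all bucketOK = true := by
  decide +kernel

theorem chk_part6 : ((buckets.drop 32).take 1).all bucketOK = true := by
  decide +kernel

theorem chk_part7 : ((buckets.drop 33).take 1).all bucketOK = true := by
  decide +kernel

theorem chk_part8 : ((buckets.drop 34).take 1).all bucketOK = true := by
  decide +kernel

theorem chk_part9 : ((buckets.drop 35).take 1).all bucketOK = true := by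
  decide +kernel

theorem chk_part10 : ((buckets.drop 36).take 1).all bucketOK = true := by
  decide +kernel

theorem chk_part11 : ((buckets.drop 37).take 1).all bucketOK = true := by
  decide +kernel

theorem chk_part12 : ((buckets.drop 38).take 1).all bucketOK = true := by
  decide +kernel

theorem chk_part13 : ((buckets.drop 39).take 1).all bucketOK = true := by
  decide +kernel

theorem chk_part14 : ((buckets.drop 40).take 1).all bucketOK = true := by
  decide +kernel

theorem chk_part15 : ((buckets.drop 41).take 1).all bucketOK = true := by
  decide +kernel

theorem chk_part16 : ((buckets.drop 42).take 1).all bucketOK = true := by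
  decide +kernel

theorem chk_part17 : ((buckets.drop 43).take 1).all bucketOK = true := by
  decide +kernel

theorem chk_part18 : ((buckets.drop 44).take 1).all bucketOK = true := by
  decide +kernel

theorem chk_part19 : ((buckets.drop 45).take 1).all bucketOK = true := by
  decide +kernel

theorem chk_part20 : ((buckets.drop 46).take 1).all bucketOK = true := by
  decide +kernel

theorem chk_part21 : ((buckets.drop 47).take 1).all bucketOK = true := by
  decide +kernel

theorem chk_part22 : ((buckets.drop 48).take 1).all bucketOK = true := by
  decide +kernel

theorem chk_part23 : ((buckets.drop 49).take 1).all bucketOK = true := by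
  decide +kernel

theorem chk_part24 : ((buckets.drop 50).take 1).all bucketOK = true := by
  decide +kernel

theorem chk_part25 : ((buckets.drop 51).take 1).all bucketOK = true := by
  decide +kernel

theorem chk_part26 : ((buckets.drop 52).take 2).all bucketOK = true := by
  decide +kernel

theorem chk_part27 : ((buckets.drop 54).take 3).all bucketOK = true := by
  decide +kernel

theorem chk_part28 : ((buckets.drop 57).take 24).all bucketOK = true := by
  decide +kernel

theorem chk_end : (buckets.drop 81).all bucketOK = true := by
  decide +kernel

theorem chk_step0 : (buckets.drop 0).all bucketOK = true :=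
  (all_parts buckets 0 24 chk_part0
  (all_parts buckets 24 3 chk_part1
  (all_parts buckets 27 2 chk_part2
  (all_parts buckets 29 1 chk_part3
  (all_parts buckets 30 1 chk_part4
  (all_parts buckets 31 1 chk_part5
  (all_parts buckets 32 1 chk_part6
  (all_parts buckets 33 1 chk_part7
  (all_parts buckets 34 1 chk_part8
  (all_parts buckets 35 1 chk_part9
  (all_parts buckets 36 1 chk_part10
  (all_parts buckets 37 1 chk_part11
  (all_parts buckets 38 1 chk_part12
  (all_parts buckets 39 1 chk_part13
  (all_parts buckets 40 1 chk_part14
  (all_parts buckets 41 1 chk_part15
  (all_parts buckets 42 1 chk_part16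
  (all_parts buckets 43 1 chk_part17
  (all_parts buckets 44 1 chk_part18
  (all_parts buckets 45 1 chk_part19
  (all_parts buckets 46 1 chk_part20
  (all_parts buckets 47 1 chk_part21
  (all_parts buckets 48 1 chk_part22
  (all_parts buckets 49 1 chk_part23
  (all_parts buckets 50 1 chk_part24
  (all_parts buckets 51 1 chk_part25
  (all_parts buckets 52 2 chk_part26
  (all_parts buckets 54 3 chk_part27
  (all_parts buckets 57 24 chk_part28
  chk_end)))))))))))))))))))))))))))))

theorem chk_step : buckets.all bucketOK = true := chk_step0

end Vale.Agent.Lib.P047E
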