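import Vale.Agent.Lib.P047D.Core
import Vale.Agent.Lib.P047E.Check

open Polynomial

open Vale.Agent.Lib.P047D

namespace Vale.Agent.Lib.P047E

/-- The polynomial with integer coefficients packed in a key. -/
noncomputable def val (k : ℕ) : ℤ[X] :=
  C ((l0 k : ℤ) - 512) + C ((l1 k : ℤ) - 512) * X + C ((l2 k : ℤ) - 512) * X ^ 2 +
    C ((l3 k : ℤ) - 512) * X ^ 3 + C ((l4 k : ℤ) - 512) * X ^ 4

/-- All invariant keys. -/
def keys : List ℕ := buckets.flatMap Prod.snd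

lemma same_bucket {a c : ℕ} (ha : a ∈ keys) (hc : c ∈ keys) (h : l4 a = l4 c) :
    ∃ b ∈ buckets, a ∈ b.2 ∧ c ∈ b.2 := by
  unfold keys at ha hc
  rw [List.mem_flatMap] at ha hc
  obtain ⟨b1, hb1, ha1⟩ := ha
  obtain ⟨b2, hb2, hc2⟩ := hc
  have ht := chk_top
  rw [List.all_eq_true] at ht
  have t1 := ht b1 hb1
  have t2 := ht b2 hb2
  rw [List.all_eq_true] at t1 t2
  have e1 := Nat.eq_of_beq_eq_true (t1 a ha1)
  have e2 := Nat.eq_of_beq_eq_true (t2 c hc2)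
  have : b1 = b2 := List.inj_on_of_nodup_map chk_tops hb1 hb2 (e1.symm.trans (h.trans e2))
  subst this
  exact ⟨b1, hb1, ha1, hc2⟩

lemma step_ok {a c : ℕ} (ha : a ∈ keys) (hc : c ∈ keys) (h : l4 a = l4 c) :
    probe (pair a c) = true := by
  obtain ⟨b, hb, h1, h2⟩ := same_bucket ha hc h
  have hs := chk_step
  rw [List.all_eq_true] at hs
  have s1 := hs b hb
  unfold bucketOK at s1
  rw [List.all_eq_true] at s1
  have s2 := s1 a h1
  rw [List.all_eq_true] at s2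
  exact s2 c h2

lemma lanes_pack {p0 p1 p2 p3 p4 : ℕ} (h0 : p0 < 1024) (h1 : p1 < 1024) (h2 : p2 < 1024)
    (h3 : p3 < 1024) :
    l0 (pack p0 p1 p2 p3 p4) = p0 ∧ l1 (pack p0 p1 p2 p3 p4) = p1 ∧
      l2 (pack p0 p1 p2 p3 p4) = p2 ∧ l3 (pack p0 p1 p2 p3 p4) = p3 ∧
      l4 (pack p0 p1 p2 p3 p4) = p4 := by
  unfold l0 l1 l2 l3 l4 pack
  refine ⟨?_, ?_, ?_, ?_, ?_⟩ <;> omega

lemma mem_of_slot {i : ℕ} (hi : i < 10009) : slot i ∈ keys := by
  have h := chk_slots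
  rw [List.all_eq_true] at h
  have h1 := h i (List.mem_range.mpr hi)
  have hmem := Tr.has_mem _ _ h1
  rw [chk_list] at hmem
  exact hmem

lemma probe_mem {p : ℕ} (h : probe p = true) : p ∈ keys := by
  unfold probe at h
  cases h1 : Nat.beq (slot (Nat.mod p 10007)) p with
  | true =>
    have e := Nat.eq_of_beq_eq_true h1
    have hlt : Nat.mod p 10007 < 10009 := by
      have : Nat.mod p 10007 < 10007 := Nat.mod_lt _ (by decide)
      omega
    rw [← e]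
    exact mem_of_slot hlt
  | false =>
    rw [h1] at h
    have e := Nat.eq_of_beq_eq_true h
    have hlt : Nat.mod p 10009 < 10009 := Nat.mod_lt _ (by decide)
    rw [← e]
    exact mem_of_slot hlt

lemma bounds_of_mem {k : ℕ} (hk : k ∈ keys) :
    432 ≤ l0 k ∧ l0 k ≤ 592 ∧ 432 ≤ l1 k ∧ l1 k ≤ 592 ∧ 432 ≤ l2 k ∧ l2 k ≤ 592 ∧
      432 ≤ l3 k ∧ l3 k ≤ 592 := by
  have h := chk_bound
  rw [List.all_eq_true] at h
  have h1 := h k (by rw [chk_list]; exact hk)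
  unfold boundOK at h1
  simp only [Bool.and_eq_true] at h1
  obtain ⟨⟨⟨⟨⟨⟨⟨a1, a2⟩, a3⟩, a4⟩, a5⟩, a6⟩, a7⟩, a8⟩ := h1
  exact ⟨Nat.le_of_ble_eq_true a1, Nat.le_of_ble_eq_true a2, Nat.le_of_ble_eq_true a3,
    Nat.le_of_ble_eq_true a4, Nat.le_of_ble_eq_true a5, Nat.le_of_ble_eq_true a6,
    Nat.le_of_ble_eq_true a7, Nat.le_of_ble_eq_true a8⟩

lemma bound4_of_mem {k : ℕ} (hk : k ∈ keys) : 432 ≤ l4 k := by
  have h := chk_bound4
  rw [List.all_eq_true] at h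
  exact Nat.le_of_ble_eq_true (h k (by rw [chk_list]; exact hk))

lemma key_decomp (k : ℕ) :
    k = l0 k + 1024 * l1 k + 1048576 * l2 k + 1073741824 * l3 k + 1099511627776 * l4 k := by
  unfold l0 l1 l2 l3 l4
  have h0 := Nat.div_add_mod k 1024
  have h1 := Nat.div_add_mod (k / 1024) 1024
  have h2 := Nat.div_add_mod (k / 1048576) 1024
  have h3 := Nat.div_add_mod (k / 1073741824) 1024
  have e1 : k / 1024 / 1024 = k / 1048576 := by rw [Nat.div_div_eq_div_mul]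
  have e2 : k / 1048576 / 1024 = k / 1073741824 := by rw [Nat.div_div_eq_div_mul]
  have e3 : k / 1073741824 / 1024 = k / 1099511627776 := by rw [Nat.div_div_eq_div_mul]
  rw [e1] at h1
  rw [e2] at h2
  rw [e3] at h3
  generalize k / 1024 % 1024 = a1 at *
  generalize k / 1048576 % 1024 = a2 at *
  generalize k / 1073741824 % 1024 = a3 at *
  generalize k % 1024 = a0 at *
  generalize k / 1099511627776 = a4 at *
  generalize k / 1024 = b1 at *
  generalize k / 1048576 = b2 at *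
  generalize k / 1073741824 = b3 at *
  linarith

lemma pair_eq_aux {x0 x1 x2 x3 x4 y0 y1 y2 y3 a c : ℕ}
    (da : a = x0 + 1024 * x1 + 1048576 * x2 + 1073741824 * x3 + 1099511627776 * x4)
    (dc : c = y0 + 1024 * y1 + 1048576 * y2 + 1073741824 * y3 + 1099511627776 * x4)
    (h1 : x0 ≤ x1 + y0) (h2 : x1 ≤ x2 + y1) (h3 : x2 ≤ x3 + y2) (h4 : x3 ≤ x4 + y3) :
    1024 * c + a - 1024 * a =
      pack x0 (x1 + y0 - x0) (x2 + y1 - x1) (x3 + y2 - x2) (x4 + y3 - x3) := by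
  unfold pack
  obtain ⟨q1, hq1⟩ := Nat.exists_eq_add_of_le h1
  obtain ⟨q2, hq2⟩ := Nat.exists_eq_add_of_le h2
  obtain ⟨q3, hq3⟩ := Nat.exists_eq_add_of_le h3
  obtain ⟨q4, hq4⟩ := Nat.exists_eq_add_of_le h4
  rw [hq1, hq2, hq3, hq4]
  simp only [Nat.add_sub_cancel_left]
  apply Nat.sub_eq_of_eq_add
  subst da dc
  linarith

lemma pair_eq {a c : ℕ} (ha : a ∈ keys) (hc : c ∈ keys) (h : l4 a = l4 c) :
    pair a c = pack (l0 a) (l1 a + l0 c - l0 a) (l2 a + l1 c - l1 a) (l3 a + l2 c - l2 a)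
      (l4 a + l3 c - l3 a) := by
  obtain ⟨a1, a2, a3, a4, a5, a6, a7, a8⟩ := bounds_of_mem ha
  obtain ⟨c1, c2, c3, c4, c5, c6, c7, c8⟩ := bounds_of_mem hc
  have a9 := bound4_of_mem ha
  have da := key_decomp a
  have dc := key_decomp c
  rw [← h] at dc
  exact pair_eq_aux da dc (by omega) (by omega) (by omega) (by omega)

lemma step_key {a c : ℕ} (ha : a ∈ keys) (hc : c ∈ keys) (h : l4 a = l4 c) :
    ∃ p ∈ keys, val p = val a + X * (val c - val a) := by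
  have hmem := probe_mem (step_ok ha hc h)
  rw [pair_eq ha hc h] at hmem
  obtain ⟨a1, a2, a3, a4, a5, a6, a7, a8⟩ := bounds_of_mem ha
  obtain ⟨c1, c2, c3, c4, c5, c6, c7, c8⟩ := bounds_of_mem hc
  have a9 := bound4_of_mem ha
  refine ⟨_, hmem, ?_⟩
  obtain ⟨e0, e1, e2, e3, e4⟩ := lanes_pack (p4 := l4 a + l3 c - l3 a)
    (show l0 a < 1024 by omega)
    (show l1 a + l0 c - l0 a < 1024 by omega)
    (show l2 a + l1 c - l1 a < 1024 by omega)
    (show l3 a + l2 c - l2 a < 1024 by omega)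
  unfold val
  rw [e0, e1, e2, e3, e4]
  have c1' : ((l1 a + l0 c - l0 a : ℕ) : ℤ) = (l1 a : ℤ) + l0 c - l0 a := by omega
  have c2' : ((l2 a + l1 c - l1 a : ℕ) : ℤ) = (l2 a : ℤ) + l1 c - l1 a := by omega
  have c3' : ((l3 a + l2 c - l2 a : ℕ) : ℤ) = (l3 a : ℤ) + l2 c - l2 a := by omega
  have c4' : ((l4 a + l3 c - l3 a : ℕ) : ℤ) = (l4 a : ℤ) + l3 c - l3 a := by omega
  rw [c1', c2', c3', c4', ← h]
  simp only [map_sub, map_add]
  ring

lemma hat_add' {n : ℕ} (F G : (Fin n → ℤˣ) → ℤ) (S : Finset (Fin n)) :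
    hat (fun y => F y + G y) S = hat F S + hat G S := by
  unfold hat
  rw [← Finset.sum_add_distrib]
  exact Finset.sum_congr rfl fun _ _ => by ring

lemma hat_sub' {n : ℕ} (F G : (Fin n → ℤˣ) → ℤ) (S : Finset (Fin n)) :
    hat (fun y => F y - G y) S = hat F S - hat G S := by
  unfold hat
  rw [← Finset.sum_sub_distrib]
  exact Finset.sum_congr rfl fun _ _ => by ring

lemma val_coeff_four (k : ℕ) : (val k).coeff 4 = (l4 k : ℤ) - 512 := by
  unfold val
  simp only [coeff_add, coeff_C_mul, coeff_X_pow, coeff_C, coeff_X]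
  simp

lemma natDegree_Y_le : natDegree Y ≤ 1 := by
  unfold Y
  have : (1 : ℤ[X]) - C 2 * X = C (-2) * X + C 1 := by
    simp only [map_neg, map_one]; ring
  rw [this]
  exact natDegree_linear_le

/-- Two restrictions of a function of degree at most four have the same top coefficient. -/
lemma top_eq {n : ℕ} (f₁ f₂ : (Fin n → ℤˣ) → ℤˣ)
    (h : ∀ S : Finset (Fin n), 4 ≤ S.card →
      hat (fun y => ((f₁ y : ℤˣ) : ℤ) - ((f₂ y : ℤˣ) : ℤ)) S = 0) :
    (Q f₁).coeff 4 = (Q f₂).coeff 4 := by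
  have hc := T_coeff_eq_zero 4 (fun y => ((f₁ y : ℤˣ) : ℤ) - ((f₂ y : ℤˣ) : ℤ)) h
  have hd : natDegree (T (fun y => ((f₁ y : ℤˣ) : ℤ) - ((f₂ y : ℤˣ) : ℤ))) ≤ 3 :=
    natDegree_le_iff_coeff_eq_zero.mpr fun N hN => hc N hN
  have hdc : natDegree ((T (fun y => ((f₁ y : ℤˣ) : ℤ) - ((f₂ y : ℤˣ) : ℤ))).comp Y) ≤ 3 := by
    calc _ ≤ _ := natDegree_comp_le
      _ ≤ 3 * 1 := Nat.mul_le_mul hd natDegree_Y_le
      _ = 3 := rfl
  have h4 : ((T (fun y => ((f₁ y : ℤˣ) : ℤ) - ((f₂ y : ℤˣ) : ℤ))).comp Y).coeff 4 = 0 :=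
    coeff_eq_zero_of_natDegree_lt (by omega)
  rw [T_sub, sub_comp, T_comp, T_comp] at h4
  have h5 : ((C ((2 : ℤ) ^ n) * (1 - C 2 * Q f₁) - C ((2 : ℤ) ^ n) * (1 - C 2 * Q f₂)) : ℤ[X]) =
      C ((2 : ℤ) ^ n * 2) * (Q f₂ - Q f₁) := by
    rw [C_mul]; ring
  rw [h5, coeff_C_mul, coeff_sub] at h4
  have h6 : (2 : ℤ) ^ n * 2 ≠ 0 := by positivity
  have h7 := (mul_eq_zero.mp h4).resolve_left h6
  omega

/-- Main invariant: the probability polynomial of any Boolean function of degree at most four is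
one of the finitely many polynomials packed in `keys`. -/
theorem exists_key : ∀ {n : ℕ} (f : (Fin n → ℤˣ) → ℤˣ),
    (∀ S : Finset (Fin n), 5 ≤ S.card → hat (fun x => ((f x : ℤˣ) : ℤ)) S = 0) →
    ∃ k ∈ keys, Q f = val k
  | 0, f, _ => by
    rcases Int.units_eq_one_or (f (fun i => i.elim0)) with h | h
    · refine ⟨key0, ?_, ?_⟩
      · have hm := Tr.has_mem _ _ chk_base.1
        rw [chk_list] at hm
        exact hm
      · have e : val key0 = 0 := by
          simp [val, l0, l1, l2, l3, l4, key0]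
        rw [e]
        simp [Q, h]
    · refine ⟨key1, ?_, ?_⟩
      · have hm := Tr.has_mem _ _ chk_base.2
        rw [chk_list] at hm
        exact hm
      · have e : val key1 = 1 := by
          simp [val, l0, l1, l2, l3, l4, key1]
        rw [e]
        simp [Q, h]
  | n + 1, f, hf => by
    have h1 : ∀ S : Finset (Fin n), 5 ≤ S.card →
        hat (fun y => ((f (Fin.cons 1 y) : ℤˣ) : ℤ) + ((f (Fin.cons (-1) y) : ℤˣ) : ℤ)) S = 0 := by
      intro S hS
      have := hat_map (fun x => ((f x : ℤˣ) : ℤ)) S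
      beta_reduce at this
      rw [← this]
      exact hf _ (by simpa using hS)
    have h2 : ∀ S : Finset (Fin n), 4 ≤ S.card →
        hat (fun y => ((f (Fin.cons 1 y) : ℤˣ) : ℤ) - ((f (Fin.cons (-1) y) : ℤˣ) : ℤ)) S = 0 := by
      intro S hS
      have := hat_insert (fun x => ((f x : ℤˣ) : ℤ)) S
      beta_reduce at this
      rw [← this]
      refine hf _ ?_
      rw [Finset.card_insert_of_notMem (by simp [Fin.succ_ne_zero]), Finset.card_map]
      omega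
    have hp : ∀ S : Finset (Fin n), 5 ≤ S.card →
        hat (fun y => ((f (Fin.cons 1 y) : ℤˣ) : ℤ)) S = 0 := by
      intro S hS
      have a1 := h1 S hS
      have a2 := h2 S (by omega)
      rw [hat_add' (fun y => ((f (Fin.cons 1 y) : ℤˣ) : ℤ))
        (fun y => ((f (Fin.cons (-1) y) : ℤˣ) : ℤ))] at a1
      rw [hat_sub' (fun y => ((f (Fin.cons 1 y) : ℤˣ) : ℤ))
        (fun y => ((f (Fin.cons (-1) y) : ℤˣ) : ℤ))] at a2
      omega
    have hm : ∀ S : Finset (Fin n), 5 ≤ S.card →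
        hat (fun y => ((f (Fin.cons (-1) y) : ℤˣ) : ℤ)) S = 0 := by
      intro S hS
      have a1 := h1 S hS
      have a2 := h2 S (by omega)
      rw [hat_add' (fun y => ((f (Fin.cons 1 y) : ℤˣ) : ℤ))
        (fun y => ((f (Fin.cons (-1) y) : ℤˣ) : ℤ))] at a1
      rw [hat_sub' (fun y => ((f (Fin.cons 1 y) : ℤˣ) : ℤ))
        (fun y => ((f (Fin.cons (-1) y) : ℤˣ) : ℤ))] at a2
      omega
    obtain ⟨k1, hk1, e1⟩ := exists_key (fun y => f (Fin.cons 1 y)) hp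
    obtain ⟨k2, hk2, e2⟩ := exists_key (fun y => f (Fin.cons (-1) y)) hm
    have htop : l4 k1 = l4 k2 := by
      have := top_eq (fun y => f (Fin.cons 1 y)) (fun y => f (Fin.cons (-1) y)) h2
      rw [e1, e2, val_coeff_four, val_coeff_four] at this
      omega
    obtain ⟨p, hp', ep⟩ := step_key hk1 hk2 htop
    refine ⟨p, hp', ?_⟩
    simp only [Q]
    rw [e1, e2, ep]

lemma key_bound {k : ℕ} (hk : k ∈ keys) :
    4 * l1 k + 4 * l2 k + 3 * l3 k + 2 * l4 k ≤ 6664 := by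
  have h := chk_weight
  rw [List.all_eq_true] at h
  have h1 := h k (by rw [chk_list]; exact hk)
  exact Nat.le_of_ble_eq_true h1

/-- The level-one sum is at most `2 * 2^n`. -/
theorem level_one_bound {n : ℕ} (f : (Fin n → ℤˣ) → ℤˣ)
    (h : ∀ S : Finset (Fin n), 5 ≤ S.card → hat (fun x => ((f x : ℤˣ) : ℤ)) S = 0) :
    (((T (fun x => ((f x : ℤˣ) : ℤ))).coeff 1 : ℤ) : ℝ) ≤ 2 * 2 ^ n := by
  obtain ⟨k, hk, e⟩ := exists_key f h
  have h1 := congrArg (aeval (1 / 2 : ℝ)) (deriv_comp_eq f)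
  rw [aeval_comp] at h1
  have hY : aeval (1 / 2 : ℝ) Y = 0 := by
    simp [Y, map_ofNat]
  rw [hY, e] at h1
  have hL : aeval (0 : ℝ) (derivative (T (fun x => ((f x : ℤˣ) : ℤ)))) =
      (((T (fun x => ((f x : ℤˣ) : ℤ))).coeff 1 : ℤ) : ℝ) := by
    rw [aeval_def, eval₂_at_zero, coeff_derivative]
    simp
  rw [hL] at h1
  have hR : aeval (1 / 2 : ℝ) (C ((2 : ℤ) ^ n) * derivative (val k)) =
      2 ^ n * (((l1 k : ℝ) - 512) + ((l2 k : ℝ) - 512) + 3 / 4 * ((l3 k : ℝ) - 512) +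
        1 / 2 * ((l4 k : ℝ) - 512)) := by
    unfold val
    simp [map_ofNat]
    ring
  rw [hR] at h1
  rw [h1]
  have hb := key_bound hk
  have hb' : 4 * (l1 k : ℝ) + 4 * l2 k + 3 * l3 k + 2 * l4 k ≤ 6664 := by exact_mod_cast hb
  have hpos : (0 : ℝ) < 2 ^ n := by positivity
  nlinarith [hb', hpos, mul_le_mul_of_nonneg_left hb' hpos.le]

end Vale.Agent.Lib.P047E
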